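import Vale.Agent.LipFree.Basic

/-!
# Bounded approximation from finite-rank maps with bounded error
-/

namespace Vale.Agent.LF

universe u v w

/-- It is enough to have, for each finite subset of a set with dense span, a finite-rank operator
of controlled norm fixing the finite subset. -/
theorem hasBAPWith_of_span {X : Type u} [NormedAddCommGroup X] [NormedSpace ℝ X] {D : Set X}
    (hD : Dense (Submodule.span ℝ D : Set X)) {lam : ℝ} (hlam : 0 ≤ lam)
    (h : ∀ A : Set X, A ⊆ D → A.Finite → ∃ T : X →L[ℝ] X,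
      FiniteDimensional ℝ (LinearMap.range (T : X →ₗ[ℝ] X)) ∧ ‖T‖ ≤ lam ∧ ∀ x ∈ A, T x = x) :
    HasBAPWith lam X := by
  classical
  intro C hC ε hε
  have hη : 0 < ε / (4 * (lam + 1)) := by positivity
  set η := ε / (4 * (lam + 1)) with hηdef
  obtain ⟨t, htfin, htcov⟩ := Metric.totallyBounded_iff.1 hC.totallyBounded η hη
  have h1 : ∀ u : X, ∃ v ∈ Submodule.span ℝ D, dist u v < η := fun u => by
    have := hD u
    rw [Metric.mem_closure_iff] at this
    exact this η hη
  choose v hv hvd using h1
  have h2 : ∀ u : X, ∃ A : Set X, A.Finite ∧ A ⊆ D ∧ v u ∈ Submodule.span ℝ A := fun u => by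
    obtain ⟨F, hF, hFv⟩ := Submodule.mem_span_finite_of_mem_span (hv u)
    exact ⟨F, F.finite_toSet, hF, hFv⟩
  choose A hAfin hAD hAv using h2
  obtain ⟨T, hTfin, hTn, hTA⟩ := h (⋃ u ∈ t, A u) (Set.iUnion₂_subset fun u _ => hAD u)
    (htfin.biUnion fun u _ => hAfin u)
  refine ⟨T, hTfin, hTn, fun x hx => ?_⟩
  obtain ⟨u, hut, hxu⟩ : ∃ u ∈ t, dist x u < η := by
    have := htcov hx
    simpa using this
  have hfix : T (v u) = v u := by
    have : Submodule.span ℝ (A u) ≤ LinearMap.eqLocus (T : X →ₗ[ℝ] X) LinearMap.id := by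
      rw [Submodule.span_le]
      intro a ha
      exact hTA a (Set.mem_biUnion hut ha)
    exact this (hAv u)
  have hxv : ‖x - v u‖ < 2 * η := by
    rw [← dist_eq_norm]
    calc dist x (v u) ≤ dist x u + dist u (v u) := dist_triangle _ _ _
      _ < η + η := add_lt_add hxu (hvd u)
      _ = 2 * η := by ring
  have h3 : T x - x = T (x - v u) - (x - v u) := by rw [map_sub, hfix]; abel
  rw [h3]
  calc ‖T (x - v u) - (x - v u)‖ ≤ ‖T (x - v u)‖ + ‖x - v u‖ := norm_sub_le _ _
    _ ≤ lam * ‖x - v u‖ + ‖x - v u‖ := by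
        gcongr
        exact (T.le_opNorm _).trans (mul_le_mul_of_nonneg_right hTn (norm_nonneg _))
    _ = (lam + 1) * ‖x - v u‖ := by ring
    _ ≤ (lam + 1) * (2 * η) := by gcongr
    _ = ε / 2 := by rw [hηdef]; field_simp; ring
    _ < ε := by linarith

variable {M : Type u} [MetricSpace M] {o : M}

/-- Bounded error suffices: a uniformly discrete space `M` has a free space with the BAP as soon
as, for a fixed constant `K` and every finite `A ⊆ M`, there is a `K`-Lipschitz map from `M` into
a finite-dimensional subspace of the free space which is within `K` of the canonical embedding on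
`A`. -/
theorem hasBAP_of_boundedError (hM : UniformlyDiscrete M) {K : ℝ}
    (h : ∀ A : Set M, A.Finite → ∃ (S : M → LipFree M o) (V : Submodule ℝ (LipFree M o)),
      FiniteDimensional ℝ V ∧ (∀ x, S x ∈ V) ∧ (∀ x y, ‖S x - S y‖ ≤ K * dist x y) ∧
        ∀ a ∈ A, ‖S a - dl o a‖ ≤ K) :
    HasBAP (LipFree M o) := by
  classical
  obtain ⟨θ, hθ, hsep⟩ := hM
  have hK : 0 ≤ K := by
    obtain ⟨S, V, -, -, -, hSA⟩ := h {o} (Set.finite_singleton o)
    exact (norm_nonneg _).trans (hSA o rfl)
  set K' : ℝ := 1 + K + K / θ with hK'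
  have hK'1 : 1 ≤ K' := by have : 0 ≤ K / θ := by positivity
                           linarith
  have hK'0 : 0 ≤ K' := zero_le_one.trans hK'1
  refine ⟨K', hK'1, hasBAPWith_of_span (dense_span_dl o) hK'0 ?_⟩
  intro A hA hAfin
  -- the finite set of points of `M` involved
  obtain ⟨B, hBfin, hBA⟩ : ∃ B : Set M, B.Finite ∧ A ⊆ dl o '' B := by
    have : Nonempty M := ⟨o⟩
    choose! g hg using fun p (hp : p ∈ A) => hA hp
    exact ⟨g '' A, hAfin.image g, fun p hp => ⟨g p, ⟨p, hp, rfl⟩, hg p hp⟩⟩
  obtain ⟨S, V, hVfin, hSV, hSL, hSA⟩ := h (insert o B) (hBfin.insert o)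
  set S' : M → LipFree M o := fun x => if x ∈ insert o B then dl o x else S x with hS'
  have hS'0 : S' o = 0 := by
    simp only [hS', Set.mem_insert_iff, true_or, if_true, dl_base]
  have key : ∀ x ∈ insert o B, ∀ y ∉ insert o B, ‖dl o x - S y‖ ≤ K' * dist x y := by
    intro x hx y hy
    have hxy : x ≠ y := fun h => hy (h ▸ hx)
    have h1 : θ ≤ dist x y := hsep x y hxy
    have h2 : K ≤ K / θ * dist x y := by
      rw [div_mul_eq_mul_div, le_div_iff₀ hθ]
      exact mul_le_mul_of_nonneg_left h1 hK
    calc ‖dl o x - S y‖ = ‖(dl o x - S x) + (S x - S y)‖ := by congr 1; abel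
      _ ≤ ‖dl o x - S x‖ + ‖S x - S y‖ := norm_add_le _ _
      _ ≤ K + K * dist x y := by
          refine add_le_add ?_ (hSL x y)
          rw [norm_sub_rev]; exact hSA x hx
      _ ≤ K / θ * dist x y + K * dist x y := by linarith
      _ ≤ K' * dist x y := by
          rw [hK']
          have := dist_nonneg (x := x) (y := y)
          nlinarith
  have hS'L : ∀ x y, ‖S' x - S' y‖ ≤ K' * dist x y := by
    intro x y
    by_cases hx : x ∈ insert o B <;> by_cases hy : y ∈ insert o B
    · simp only [hS', if_pos hx, if_pos hy, norm_dl_sub]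
      exact le_mul_of_one_le_left dist_nonneg hK'1
    · simp only [hS', if_pos hx, if_neg hy]
      exact key x hx y hy
    · simp only [hS', if_neg hx, if_pos hy]
      rw [norm_sub_rev, dist_comm]
      exact key y hy x hx
    · simp only [hS', if_neg hx, if_neg hy]
      refine (hSL x y).trans (mul_le_mul_of_nonneg_right ?_ dist_nonneg)
      have : 0 ≤ K / θ := by positivity
      linarith
  obtain ⟨T, hTn, hT⟩ := exists_lift S' hS'0 hK'0 hS'L
  refine ⟨T, ?_, hTn, ?_⟩
  · -- finite rank
    set V' : Submodule ℝ (LipFree M o) := V ⊔ Submodule.span ℝ (dl o '' (insert o B)) with hV'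
    have hfin2 : FiniteDimensional ℝ (Submodule.span ℝ (dl o '' (insert o B))) :=
      FiniteDimensional.span_of_finite ℝ ((hBfin.insert o).image _)
    have hfin : FiniteDimensional ℝ V' := inferInstance
    have hle : LinearMap.range (T : LipFree M o →ₗ[ℝ] LipFree M o) ≤ V' := by
      have hcl : IsClosed (V' : Set (LipFree M o)) := V'.closed_of_finiteDimensional
      have h1 : (Submodule.span ℝ (Set.range (dl o)) : Set (LipFree M o)) ⊆ T ⁻¹' V' := by
        have : Submodule.span ℝ (Set.range (dl o)) ≤
            Submodule.comap (T : LipFree M o →ₗ[ℝ] LipFree M o) V' := by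
          rw [Submodule.span_le]
          rintro _ ⟨x, rfl⟩
          show T (dl o x) ∈ V'
          rw [hT]
          by_cases hx : x ∈ insert o B
          · simp only [hS', if_pos hx]
            exact (le_sup_right : _ ≤ V') (Submodule.subset_span ⟨x, hx, rfl⟩)
          · simp only [hS', if_neg hx]
            exact (le_sup_left : _ ≤ V') (hSV x)
        exact this
      rintro _ ⟨p, rfl⟩
      exact (hcl.preimage T.continuous).closure_subset_iff.2 h1 (dense_span_dl o p)
    exact Submodule.finiteDimensional_of_le hle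
  · intro p hp
    obtain ⟨x, hx, rfl⟩ := hBA hp
    rw [hT]
    simp only [hS', if_pos (Set.mem_insert_of_mem o hx)]

end Vale.Agent.LF
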