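import Vale.Agent.LipFree.Coarse

/-!
# Coarse Lipschitz retracts of Banach spaces with the BAP, and the reduction to nets
-/

namespace Vale.Agent.LF

universe u v w

/-- If `X` has the BAP and the uniformly discrete space `M` is a coarse Lipschitz retract of `X`
then the free space of `M` has the BAP. -/
theorem hasBAP_of_coarseRetract_banach {X : Type u} [NormedAddCommGroup X] [NormedSpace ℝ X]
    {M : Type v} [MetricSpace M] {o : M} (hX : HasBAP X) (hM : UniformlyDiscrete M)
    (hr : CoarseRetract M X) : HasBAP (LipFree M o) := by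
  classical
  obtain ⟨lam, hlam1, hlam⟩ := hX
  have hlam0 : 0 ≤ lam := zero_le_one.trans hlam1
  obtain ⟨i, r, hi, hr, C, hC⟩ := hr
  obtain ⟨Ci, hCi0, hCi⟩ := hi.exists_nonneg
  obtain ⟨Cr, hCr0, hCr⟩ := hr.exists_nonneg
  refine hasBAP_of_locallyFinite hM (C := Cr * (2 + lam * Ci) + 2 * Cr + |C|) fun A hA ρ => ?_
  obtain ⟨T, hTfin, hTn, hTA⟩ := hlam (i '' A) (hA.image i).isCompact 1 one_pos
  have hTL : ∀ x y : X, ‖T x - T y‖ ≤ lam * ‖x - y‖ := fun x y => by
    rw [← map_sub]
    exact (T.le_opNorm _).trans (mul_le_mul_of_nonneg_right hTn (norm_nonneg _))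
  -- a finite net of the bounded set `T (i (closedBall o ρ))`
  set W : Submodule ℝ X := LinearMap.range (T : X →ₗ[ℝ] X) with hW
  have hWfin : FiniteDimensional ℝ W := hTfin
  have hWprop : ProperSpace W := FiniteDimensional.proper_real W
  let TW : X → W := fun x => ⟨T x, ⟨x, rfl⟩⟩
  set s : Set W := (fun x => TW (i x)) '' Metric.closedBall o ρ with hs
  have hsb : Bornology.IsBounded s := by
    rw [Metric.isBounded_iff_subset_closedBall (TW (i o))]
    refine ⟨lam * (Ci * ρ + Ci), ?_⟩
    rintro _ ⟨x, hx, rfl⟩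
    rw [Metric.mem_closedBall]
    show dist (T (i x)) (T (i o)) ≤ _
    rw [dist_eq_norm]
    refine (hTL _ _).trans ?_
    rw [← dist_eq_norm]
    refine mul_le_mul_of_nonneg_left ((hCi x o).trans ?_) hlam0
    have : Ci * dist x o ≤ Ci * ρ := mul_le_mul_of_nonneg_left hx hCi0
    linarith
  have htb : TotallyBounded s := hsb.isCompact_closure.totallyBounded.subset subset_closure
  obtain ⟨t, htfin, htcov⟩ := Metric.totallyBounded_iff.1 htb 1 one_pos
  have hg : ∀ x ∈ Metric.closedBall o ρ, ∃ g : X, g ∈ (Subtype.val '' t : Set X) ∧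
      dist (T (i x)) g < 1 := by
    intro x hx
    have := htcov ⟨x, hx, rfl⟩
    simp only [Set.mem_iUnion, Metric.mem_ball] at this
    obtain ⟨g, hgt, hg⟩ := this
    exact ⟨g, ⟨g, hgt, rfl⟩, hg⟩
  choose! g hgt hgd using hg
  refine ⟨fun x => r (g x), fun x hx y hy => ?_, fun a ha hab => ?_, ?_⟩
  · have h1 : dist (g x) (g y) ≤ 2 + lam * (Ci * dist x y + Ci) := by
      calc dist (g x) (g y) ≤ dist (g x) (T (i x)) + dist (T (i x)) (T (i y)) +
            dist (T (i y)) (g y) := dist_triangle4 _ _ _ _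
        _ ≤ 1 + lam * (Ci * dist x y + Ci) + 1 := by
            refine add_le_add (add_le_add ?_ ?_) (hgd y hy).le
            · rw [dist_comm]; exact (hgd x hx).le
            · rw [dist_eq_norm]
              refine (hTL _ _).trans ?_
              rw [← dist_eq_norm]
              exact mul_le_mul_of_nonneg_left (hCi x y) hlam0
        _ = _ := by ring
    calc dist (r (g x)) (r (g y)) ≤ Cr * dist (g x) (g y) + Cr := hCr _ _
      _ ≤ Cr * (2 + lam * (Ci * dist x y + Ci)) + Cr := by gcongr
      _ = (Cr * lam * Ci) * dist x y + (Cr * (2 + lam * Ci) + Cr) := by ring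
      _ ≤ _ := by
          have h2 : (Cr * lam * Ci) * dist x y ≤
              (Cr * (2 + lam * Ci) + 2 * Cr + |C|) * dist x y := by
            refine mul_le_mul_of_nonneg_right ?_ dist_nonneg
            have : 0 ≤ |C| := abs_nonneg C
            nlinarith
          have : 0 ≤ |C| := abs_nonneg C
          linarith
  · have h1 : dist (g a) (i a) ≤ 2 := by
      calc dist (g a) (i a) ≤ dist (g a) (T (i a)) + dist (T (i a)) (i a) := dist_triangle _ _ _
        _ ≤ 1 + 1 := by
            refine add_le_add ?_ ?_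
            · rw [dist_comm]; exact (hgd a hab).le
            · rw [dist_eq_norm]; exact (hTA _ ⟨a, ha, rfl⟩).le
        _ = 2 := by norm_num
    calc dist (r (g a)) a ≤ dist (r (g a)) (r (i a)) + dist (r (i a)) a := dist_triangle _ _ _
      _ ≤ (Cr * 2 + Cr) + |C| := by
          refine add_le_add ((hCr _ _).trans ?_) ((hC a).trans (le_abs_self C))
          gcongr
      _ ≤ _ := by
          have : 0 ≤ Cr * (lam * Ci) := by positivity
          nlinarith
  · refine ((htfin.image Subtype.val).image r).subset ?_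
    rintro _ ⟨x, hx, rfl⟩
    exact ⟨g x, hgt x hx, rfl⟩

/-- A net is a coarse Lipschitz retract of the ambient space. -/
theorem IsNet.coarseRetract {Z : Type u} [MetricSpace Z] {N : Set Z} (hN : IsNet N) :
    CoarseRetract N Z := by
  obtain ⟨-, R, hR⟩ := hN
  choose p hp hpd using hR
  refine ⟨Subtype.val, fun z => ⟨p z, hp z⟩, ⟨1, fun x y => ?_⟩, ⟨max 1 (2 * R), fun x y => ?_⟩,
    R, fun x => ?_⟩
  · rw [one_mul]
    exact (le_add_iff_nonneg_right _).2 zero_le_one
  · show dist (p x) (p y) ≤ _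
    calc dist (p x) (p y) ≤ dist (p x) x + dist x y + dist y (p y) := dist_triangle4 _ _ _ _
      _ ≤ R + dist x y + R := by
          gcongr
          · rw [dist_comm]; exact hpd x
          · exact hpd y
      _ = 1 * dist x y + 2 * R := by ring
      _ ≤ _ := by
          gcongr
          · exact le_max_left _ _
          · exact le_max_right _ _
  · show dist (p x) (x : Z) ≤ R
    rw [dist_comm]; exact hpd x

/-- Two nets of the same space are coarse Lipschitz retracts of each other. -/
theorem IsNet.coarseRetract_net {Z : Type u} [MetricSpace Z] {N N' : Set Z} (hN : IsNet N)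
    (hN' : IsNet N') : CoarseRetract N N' := by
  obtain ⟨-, R, hR⟩ := hN
  obtain ⟨-, R', hR'⟩ := hN'
  choose p hp hpd using hR
  choose p' hp' hpd' using hR'
  refine ⟨fun z => ⟨p' z, hp' z⟩, fun z => ⟨p z, hp z⟩, ⟨max 1 (2 * R'), fun x y => ?_⟩,
    ⟨max 1 (2 * R), fun x y => ?_⟩, R + R', fun x => ?_⟩
  · show dist (p' x) (p' y) ≤ _ * dist (x : Z) y + _
    calc dist (p' x) (p' y) ≤ dist (p' x) x + dist (x : Z) y + dist (y : Z) (p' y) :=
          dist_triangle4 _ _ _ _
      _ ≤ R' + dist (x : Z) y + R' := by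
          gcongr
          · rw [dist_comm]; exact hpd' x
          · exact hpd' y
      _ = 1 * dist (x : Z) y + 2 * R' := by ring
      _ ≤ _ := by
          gcongr
          · exact le_max_left _ _
          · exact le_max_right _ _
  · show dist (p x) (p y) ≤ _ * dist (x : Z) y + _
    calc dist (p x) (p y) ≤ dist (p x) x + dist (x : Z) y + dist (y : Z) (p y) :=
          dist_triangle4 _ _ _ _
      _ ≤ R + dist (x : Z) y + R := by
          gcongr
          · rw [dist_comm]; exact hpd x
          · exact hpd y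
      _ = 1 * dist (x : Z) y + 2 * R := by ring
      _ ≤ _ := by
          gcongr
          · exact le_max_left _ _
          · exact le_max_right _ _
  · show dist (p (p' x)) (x : Z) ≤ _
    calc dist (p (p' x)) (x : Z) ≤ dist (p (p' x)) (p' x) + dist (p' x) x := dist_triangle _ _ _
      _ ≤ R + R' := by
          gcongr
          · rw [dist_comm]; exact hpd _
          · rw [dist_comm]; exact hpd' _

/-- The BAP passes to complemented subspaces. -/
theorem HasBAP.of_retract {X : Type u} {Y : Type v} [NormedAddCommGroup X] [NormedSpace ℝ X]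
    [NormedAddCommGroup Y] [NormedSpace ℝ Y] (hY : HasBAP Y) (j : X →L[ℝ] Y) (q : Y →L[ℝ] X)
    (hqj : ∀ x, q (j x) = x) : HasBAP X := by
  obtain ⟨lam, hlam1, hlam⟩ := hY
  have hlam0 : 0 ≤ lam := zero_le_one.trans hlam1
  refine ⟨max 1 (‖q‖ * (lam * ‖j‖)), le_max_left _ _, fun C hC ε hε => ?_⟩
  obtain ⟨T, hTfin, hTn, hT⟩ := hlam (j '' C) (hC.image j.continuous) (ε / (‖q‖ + 1))
    (by positivity)
  refine ⟨q.comp (T.comp j), ?_, ?_, fun x hx => ?_⟩
  · have hle : LinearMap.range ((q.comp (T.comp j) : X →L[ℝ] X) : X →ₗ[ℝ] X) ≤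
        Submodule.map (q : Y →ₗ[ℝ] X) (LinearMap.range (T : Y →ₗ[ℝ] Y)) := by
      rintro _ ⟨x, rfl⟩
      exact ⟨T (j x), ⟨j x, rfl⟩, rfl⟩
    exact Submodule.finiteDimensional_of_le hle
  · refine le_trans ?_ (le_max_right _ _)
    calc ‖q.comp (T.comp j)‖ ≤ ‖q‖ * ‖T.comp j‖ := ContinuousLinearMap.opNorm_comp_le _ _
      _ ≤ ‖q‖ * (‖T‖ * ‖j‖) := by gcongr; exact ContinuousLinearMap.opNorm_comp_le _ _
      _ ≤ _ := by gcongr
  · have h1 : (q.comp (T.comp j)) x - x = q (T (j x) - j x) := by
      rw [map_sub, hqj]; rfl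
    rw [h1]
    calc ‖q (T (j x) - j x)‖ ≤ ‖q‖ * ‖T (j x) - j x‖ := q.le_opNorm _
      _ ≤ ‖q‖ * (ε / (‖q‖ + 1)) := by
          gcongr
          exact (hT _ ⟨x, hx, rfl⟩).le
      _ < ε := by
          rw [mul_div_assoc', div_lt_iff₀ (by positivity)]
          nlinarith [norm_nonneg q]

/-- If `N ⊆ LipFree M o` contains the canonical copy of `M` then `LipFree M o` is complemented in
`LipFree N ν`; hence the BAP passes from the latter to the former. -/
theorem hasBAP_of_supset {M : Type u} [MetricSpace M] {o : M} {N : Set (LipFree M o)} (ν : N)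
    (hN : ∀ x, dl o x ∈ N) (h : HasBAP (LipFree N ν)) : HasBAP (LipFree M o) := by
  obtain ⟨j, -, hj⟩ := exists_lift (o := o) (K := 1)
    (fun x => dl ν (⟨dl o x, hN x⟩ : N) - dl ν (⟨dl o o, hN o⟩ : N)) (sub_self _) zero_le_one
    (fun x y => by
      rw [sub_sub_sub_cancel_right, norm_dl_sub, one_mul]
      show dist (dl o x) (dl o y) ≤ _
      rw [dist_eq_norm, norm_dl_sub])
  obtain ⟨q, -, hq⟩ := exists_lift (o := ν) (K := 1) (fun n : N => (n : LipFree M o) - ν)
    (sub_self _) zero_le_one (fun x y => by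
      rw [sub_sub_sub_cancel_right, one_mul, ← dist_eq_norm]; rfl)
  refine h.of_retract j q ?_
  have h1 : (Submodule.span ℝ (Set.range (dl o)) : Set (LipFree M o)) ⊆
      {p | q (j p) = p} := by
    have : Submodule.span ℝ (Set.range (dl o)) ≤
        LinearMap.eqLocus ((q.comp j : LipFree M o →L[ℝ] LipFree M o) :
          LipFree M o →ₗ[ℝ] LipFree M o) LinearMap.id := by
      rw [Submodule.span_le]
      rintro _ ⟨x, rfl⟩
      show q (j (dl o x)) = dl o x
      rw [hj, map_sub, hq, hq]
      simp [dl_base]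
    exact this
  have h2 : IsClosed {p : LipFree M o | q (j p) = p} :=
    isClosed_eq (q.continuous.comp j.continuous) continuous_id
  exact fun p => h2.closure_subset_iff.2 h1 (dense_span_dl o p)

/-- Each uniformly discrete subset extends to a net. -/
theorem exists_net_supset {Z : Type u} [MetricSpace Z] {S : Set Z} (hS : UniformlyDiscrete S) :
    ∃ N : Set Z, S ⊆ N ∧ IsNet N := by
  obtain ⟨θ, hθ, hsep⟩ := hS
  let P : Set (Set Z) := {N | ∀ x ∈ N, ∀ y ∈ N, x ≠ y → θ ≤ dist x y}
  have hSP : S ∈ P := fun x hx y hy hxy =>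
    hsep ⟨x, hx⟩ ⟨y, hy⟩ (fun h => hxy (congrArg Subtype.val h))
  obtain ⟨N, hSN, hN⟩ := zorn_subset_nonempty P (by
    intro c hcP hc _
    refine ⟨⋃₀ c, ?_, fun s hs => Set.subset_sUnion_of_mem hs⟩
    rintro x ⟨s, hs, hxs⟩ y ⟨t, ht, hyt⟩ hxy
    rcases hc.total hs ht with hst | hts
    · exact hcP ht x (hst hxs) y hyt hxy
    · exact hcP hs x hxs y (hts hyt) hxy) S hSP
  refine ⟨N, hSN, ⟨θ, hθ, fun x y hxy => ?_⟩, θ, fun z => ?_⟩
  · exact hN.prop x x.2 y y.2 (fun h => hxy (Subtype.ext h))
  · by_contra hcon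
    push Not at hcon
    have hz : z ∉ N := fun hz => by
      have := hcon z hz
      rw [dist_self] at this
      linarith
    have hins : insert z N ∈ P := by
      intro x hx y hy hxy
      rcases hx with rfl | hx <;> rcases hy with rfl | hy
      · exact absurd rfl hxy
      · exact (hcon y hy).le
      · rw [dist_comm]; exact (hcon x hx).le
      · exact hN.prop x hx y hy hxy
    exact hz (hN.le_of_ge hins (Set.subset_insert z N) (Set.mem_insert z N))

theorem uniformlyDiscrete_range_dl {M : Type u} [MetricSpace M] (o : M)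
    (hM : UniformlyDiscrete M) : UniformlyDiscrete (Set.range (dl o)) := by
  obtain ⟨θ, hθ, hsep⟩ := hM
  refine ⟨θ, hθ, ?_⟩
  rintro ⟨_, x, rfl⟩ ⟨_, y, rfl⟩ hxy
  show θ ≤ dist (dl o x) (dl o y)
  rw [dist_eq_norm, norm_dl_sub]
  exact hsep x y (fun h => hxy (by subst h; rfl))

/-- The BAP of the free space of `M` is equivalent to that of the free space of any net of the
Banach space `LipFree M o`. -/
theorem hasBAP_tfae_net {M : Type u} [MetricSpace M] (o : M) (hM : UniformlyDiscrete M) :
    [HasBAP (LipFree M o),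
      ∀ N : Set (LipFree M o), IsNet N → ∀ ν : N, HasBAP (LipFree N ν),
      ∃ (N : Set (LipFree M o)) (_ : IsNet N) (ν : N), HasBAP (LipFree N ν)].TFAE := by
  obtain ⟨N₀, hN₀sub, hN₀⟩ := exists_net_supset (uniformlyDiscrete_range_dl o hM)
  have hmem : ∀ x, dl o x ∈ N₀ := fun x => hN₀sub ⟨x, rfl⟩
  tfae_have 1 → 2 := fun h N hN ν => hasBAP_of_coarseRetract_banach h hN.1 hN.coarseRetract
  tfae_have 2 → 3 := fun h => ⟨N₀, hN₀, ⟨dl o o, hmem o⟩, h N₀ hN₀ _⟩
  tfae_have 3 → 1 := by
    rintro ⟨N, hN, ν, h⟩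
    refine hasBAP_of_supset ⟨dl o o, hmem o⟩ hmem ?_
    exact hasBAP_of_coarseRetract hN.1 hN₀.1 (hN₀.coarseRetract_net hN) h
  tfae_finish

end Vale.Agent.LF
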