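import Vale.Agent.LipFree.Defs

/-!
# Lipschitz-free spaces: the isometric embedding and the linearisation of Lipschitz maps
-/

namespace Vale.Agent.LF

universe u v w

variable {M : Type u} [MetricSpace M] {o : M}

theorem delta_base (o : M) : delta o o = 0 := by
  ext f
  simp

theorem norm_delta_sub (o x y : M) : ‖delta o x - delta o y‖ = dist x y := by
  refine le_antisymm (ContinuousLinearMap.opNorm_le_bound _ dist_nonneg fun f => ?_) ?_
  · have := f.lipschitz_bound x y
    simpa [mul_comm] using this
  · -- the test function `z ↦ dist z y - dist o y`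
    let g : Lip0 M o := ⟨fun z => dist z y - dist o y, by simp, 1, fun a b => by
      have : dist a y - dist o y - (dist b y - dist o y) = dist a y - dist b y := by ring
      rw [this, one_mul]
      exact abs_dist_sub_le a b y⟩
    have hg : ‖g‖ ≤ 1 := g.norm_le zero_le_one fun a b => by
      have : g.fn a - g.fn b = dist a y - dist b y := by
        show (dist a y - dist o y) - (dist b y - dist o y) = _
        ring
      rw [this, one_mul]
      exact abs_dist_sub_le a b y
    have h1 : (delta o x - delta o y) g = dist x y := by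
      show (dist x y - dist o y) - (dist y y - dist o y) = _
      rw [dist_self]; ring
    have h2 := (delta o x - delta o y).le_opNorm g
    rw [h1, Real.norm_of_nonneg dist_nonneg] at h2
    calc dist x y ≤ ‖delta o x - delta o y‖ * ‖g‖ := h2
      _ ≤ ‖delta o x - delta o y‖ * 1 := mul_le_mul_of_nonneg_left hg (norm_nonneg _)
      _ = _ := mul_one _

/-- The inclusion of the free space into the dual of `Lip0 M o`. -/
noncomputable def incl (M : Type u) [MetricSpace M] (o : M) :
    LipFree M o →ₗᵢ[ℝ] StrongDual ℝ (Lip0 M o) where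
  toFun p := p.1
  map_add' _ _ := rfl
  map_smul' _ _ := rfl
  norm_map' _ := rfl

/-- The evaluation at `x`, as an element of the free space. -/
noncomputable def dl (o x : M) : LipFree M o :=
  ⟨delta o x, Submodule.le_topologicalClosure _ (Submodule.subset_span ⟨x, rfl⟩)⟩

theorem incl_dl (o x : M) : incl M o (dl o x) = delta o x := rfl

theorem dl_base (o : M) : dl o o = 0 := (incl M o).injective (by
  rw [incl_dl, delta_base, map_zero])

theorem norm_dl_sub (o x y : M) : ‖dl o x - dl o y‖ = dist x y := by
  rw [← (incl M o).norm_map, map_sub, incl_dl, incl_dl, norm_delta_sub]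

theorem norm_dl (o x : M) : ‖dl o x‖ = dist x o := by
  rw [← norm_dl_sub o x o, dl_base, sub_zero]

instance : CompleteSpace (LipFree M o) :=
  (Submodule.isClosed_topologicalClosure
    (Submodule.span ℝ (Set.range (delta o)))).completeSpace_coe

/-- The evaluations span a dense subspace of the free space. -/
theorem dense_span_dl (o : M) : Dense (Submodule.span ℝ (Set.range (dl o)) : Set (LipFree M o)) := by
  intro p
  have hp : incl M o p ∈
      closure (Submodule.span ℝ (Set.range (delta o)) : Set (StrongDual ℝ (Lip0 M o))) := p.2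
  rw [Metric.mem_closure_iff] at hp ⊢
  intro ε hε
  obtain ⟨b, hb, hd⟩ := hp ε hε
  have himg : Submodule.map (incl M o).toLinearMap (Submodule.span ℝ (Set.range (dl o))) =
      Submodule.span ℝ (Set.range (delta o)) := by
    rw [Submodule.map_span, ← Set.range_comp]
    rfl
  have hb' : b ∈ Submodule.map (incl M o).toLinearMap (Submodule.span ℝ (Set.range (dl o))) := by
    rw [himg]; exact hb
  obtain ⟨q, hq, hqb⟩ := hb'
  refine ⟨q, hq, ?_⟩
  rw [← (incl M o).isometry.dist_eq]
  exact hqb ▸ hd

/-- Linearisation: a Lipschitz map from `M` to a Banach space `Y` which vanishes at `o` extends to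
a bounded operator on the free space. -/
theorem exists_lift {Y : Type v} [NormedAddCommGroup Y] [NormedSpace ℝ Y] [CompleteSpace Y]
    (S : M → Y) (hS0 : S o = 0) {K : ℝ} (hK : 0 ≤ K) (hS : ∀ x y, ‖S x - S y‖ ≤ K * dist x y) :
    ∃ T : LipFree M o →L[ℝ] Y, ‖T‖ ≤ K ∧ ∀ x, T (dl o x) = S x := by
  classical
  -- the dual map `Y* → Lip0 M o`
  have hlip : ∀ (φ : StrongDual ℝ Y) (x y : M), |φ (S x) - φ (S y)| ≤ (K * ‖φ‖) * dist x y := by
    intro φ x y
    rw [← map_sub]
    calc |φ (S x - S y)| ≤ ‖φ‖ * ‖S x - S y‖ := φ.le_opNorm _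
      _ ≤ ‖φ‖ * (K * dist x y) := mul_le_mul_of_nonneg_left (hS x y) (norm_nonneg _)
      _ = _ := by ring
  let A : StrongDual ℝ Y →L[ℝ] Lip0 M o :=
    LinearMap.mkContinuous
      { toFun := fun φ => (⟨fun x => φ (S x), by simp [hS0], K * ‖φ‖, hlip φ⟩ : Lip0 M o)
        map_add' := fun φ ψ => Lip0.ext fun x => rfl
        map_smul' := fun c φ => Lip0.ext fun x => rfl } K
      (fun φ => Lip0.norm_le _ (mul_nonneg hK (norm_nonneg _)) (hlip φ))
  have hA : ‖A‖ ≤ K := LinearMap.mkContinuous_norm_le _ hK _
  -- its adjoint, restricted to the free space, with values in the bidual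
  let B : LipFree M o →L[ℝ] StrongDual ℝ (StrongDual ℝ Y) :=
    ((ContinuousLinearMap.compL ℝ (StrongDual ℝ Y) (Lip0 M o) ℝ).flip A).comp
      (incl M o).toContinuousLinearMap
  have hBapp : ∀ p : LipFree M o, B p = (incl M o p).comp A := fun p => rfl
  have hBn : ∀ p, ‖B p‖ ≤ K * ‖p‖ := by
    intro p
    rw [hBapp]
    calc ‖(incl M o p).comp A‖ ≤ ‖incl M o p‖ * ‖A‖ :=
          ContinuousLinearMap.opNorm_comp_le _ _
      _ ≤ ‖incl M o p‖ * K := mul_le_mul_of_nonneg_left hA (norm_nonneg _)
      _ = K * ‖p‖ := by rw [(incl M o).norm_map, mul_comm]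
  let J := NormedSpace.inclusionInDoubleDualLi ℝ (E := Y)
  have hJ : ∀ x, B (dl o x) = J (S x) := by
    intro x
    rw [hBapp]
    ext φ
    rfl
  -- the range of `B` is inside the (closed) range of `J`
  have hclosed : IsClosed (Set.range J) := by
    have h1 : IsComplete (Set.range J) := J.isometry.isUniformInducing.isComplete_range
    exact h1.isClosed
  have hrange : ∀ p, B p ∈ Set.range J := by
    have h1 : (Submodule.span ℝ (Set.range (dl o)) : Set (LipFree M o)) ⊆ B ⁻¹' Set.range J := by
      have : Submodule.span ℝ (Set.range (dl o)) ≤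
          Submodule.comap (B : LipFree M o →ₗ[ℝ] _) (LinearMap.range J.toLinearMap) := by
        rw [Submodule.span_le]
        rintro _ ⟨x, rfl⟩
        exact ⟨S x, (hJ x).symm⟩
      intro p hp
      obtain ⟨y, hy⟩ := this hp
      exact ⟨y, hy⟩
    have h2 : IsClosed (B ⁻¹' Set.range J) := hclosed.preimage B.continuous
    intro p
    exact h2.closure_subset_iff.2 h1 (dense_span_dl o p)
  choose T hT using hrange
  have hTadd : ∀ p q, T (p + q) = T p + T q := fun p q =>
    J.injective (by rw [hT, map_add, map_add, hT, hT])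
  have hTsmul : ∀ (c : ℝ) p, T (c • p) = c • T p := fun c p =>
    J.injective (by rw [hT, map_smul, map_smul, hT])
  refine ⟨LinearMap.mkContinuous { toFun := T, map_add' := hTadd, map_smul' := hTsmul } K
    (fun p => ?_), LinearMap.mkContinuous_norm_le _ hK _, fun x => ?_⟩
  · show ‖T p‖ ≤ K * ‖p‖
    rw [← J.norm_map, hT]
    exact hBn p
  · show T (dl o x) = S x
    exact J.injective (by rw [hT, hJ])

end Vale.Agent.LF
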