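import Vale.Agent.LipFree.Approx

/-!
# Coarse invariance of the bounded approximation property of free spaces
-/

namespace Vale.Agent.LF

universe u v w

theorem CoarseLipschitz.exists_nonneg {M : Type u} {N : Type v} [MetricSpace M] [MetricSpace N]
    {f : M → N} (hf : CoarseLipschitz f) :
    ∃ C : ℝ, 0 ≤ C ∧ ∀ x y, dist (f x) (f y) ≤ C * dist x y + C := by
  obtain ⟨C, hC⟩ := hf
  refine ⟨|C|, abs_nonneg C, fun x y => (hC x y).trans ?_⟩
  exact add_le_add (mul_le_mul_of_nonneg_right (le_abs_self C) dist_nonneg) (le_abs_self C)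

/-- On a uniformly discrete space, coarse Lipschitz maps are Lipschitz. -/
theorem lipschitz_of_coarse {M : Type u} [MetricSpace M] {θ C : ℝ} (hθ : 0 < θ) (hC : 0 ≤ C)
    {x y : M} (hsep : x ≠ y → θ ≤ dist x y) {t : ℝ} (ht : x = y → t = 0)
    (h : t ≤ C * dist x y + C) : t ≤ (C + C / θ) * dist x y := by
  by_cases hxy : x = y
  · rw [ht hxy, hxy, dist_self, mul_zero]
  · have h1 := hsep hxy
    have h2 : C ≤ C / θ * dist x y := by
      rw [div_mul_eq_mul_div, le_div_iff₀ hθ]
      exact mul_le_mul_of_nonneg_left h1 hC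
    calc t ≤ C * dist x y + C := h
      _ ≤ C * dist x y + C / θ * dist x y := by linarith
      _ = _ := by ring

theorem CoarseLipschitz.lipschitz {M : Type u} {N : Type v} [MetricSpace M] [MetricSpace N]
    {f : M → N} (hf : CoarseLipschitz f) (hM : UniformlyDiscrete M) :
    ∃ L : ℝ, 0 ≤ L ∧ ∀ x y, dist (f x) (f y) ≤ L * dist x y := by
  obtain ⟨C, hC0, hC⟩ := hf.exists_nonneg
  obtain ⟨θ, hθ, hsep⟩ := hM
  refine ⟨C + C / θ, by positivity, fun x y => ?_⟩
  exact lipschitz_of_coarse hθ hC0 (hsep x y) (fun h => by rw [h, dist_self]) (hC x y)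

/-- The BAP of the free space passes to coarse Lipschitz retracts (among uniformly discrete
spaces); in particular it is invariant under quasi-isometries. -/
theorem hasBAP_of_coarseRetract {M : Type u} {M' : Type v} [MetricSpace M] [MetricSpace M']
    {o : M} {o' : M'} (hM : UniformlyDiscrete M) (hM' : UniformlyDiscrete M')
    (hr : CoarseRetract M' M) (h : HasBAP (LipFree M o)) : HasBAP (LipFree M' o') := by
  classical
  obtain ⟨i, r, hi, hr, C, hC⟩ := hr
  obtain ⟨Li, hLi0, hLi⟩ := hi.lipschitz hM'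
  obtain ⟨Lr, hLr0, hLr⟩ := hr.lipschitz hM
  obtain ⟨lam, hlam1, hlam⟩ := h
  have hlam0 : 0 ≤ lam := zero_le_one.trans hlam1
  obtain ⟨R, hRn, hR⟩ := exists_lift (o := o) (fun x => dl o' (r x) - dl o' (r o))
    (sub_self _) hLr0 (fun x y => by
      rw [sub_sub_sub_cancel_right, norm_dl_sub]; exact hLr x y)
  refine hasBAP_of_boundedError hM' (K := Lr * lam * Li + Lr + |C|) fun A hA => ?_
  obtain ⟨T, hTfin, hTn, hTA⟩ := hlam (dl o '' (i '' A)) ((hA.image i).image _).isCompact 1
    one_pos
  refine ⟨fun x => R (T (dl o (i x))) + dl o' (r o),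
    Submodule.map (R : LipFree M o →ₗ[ℝ] LipFree M' o')
      (LinearMap.range (T : LipFree M o →ₗ[ℝ] LipFree M o)) ⊔
      Submodule.span ℝ {dl o' (r o)}, inferInstance, fun x => ?_, fun x y => ?_, fun a ha => ?_⟩
  · exact Submodule.add_mem_sup ⟨T (dl o (i x)), ⟨_, rfl⟩, rfl⟩
      (Submodule.mem_span_singleton_self _)
  · have h1 : R (T (dl o (i x))) + dl o' (r o) - (R (T (dl o (i y))) + dl o' (r o)) =
        R (T (dl o (i x) - dl o (i y))) := by
      rw [map_sub, map_sub]; abel
    rw [h1]
    calc ‖R (T (dl o (i x) - dl o (i y)))‖ ≤ ‖R‖ * ‖T (dl o (i x) - dl o (i y))‖ :=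
          R.le_opNorm _
      _ ≤ ‖R‖ * (‖T‖ * ‖dl o (i x) - dl o (i y)‖) := by
          gcongr; exact T.le_opNorm _
      _ ≤ Lr * (lam * (Li * dist x y)) := by
          rw [norm_dl_sub]
          gcongr
          exact hLi x y
      _ = (Lr * lam * Li) * dist x y := by ring
      _ ≤ _ := by
          have : 0 ≤ |C| := abs_nonneg C
          have := dist_nonneg (x := x) (y := y)
          gcongr
          linarith
  · have h1 : R (T (dl o (i a))) + dl o' (r o) - dl o' a =
        R (T (dl o (i a)) - dl o (i a)) + (dl o' (r (i a)) - dl o' a) := by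
      rw [map_sub, hR]; abel
    rw [h1]
    calc ‖R (T (dl o (i a)) - dl o (i a)) + (dl o' (r (i a)) - dl o' a)‖
        ≤ ‖R (T (dl o (i a)) - dl o (i a))‖ + ‖dl o' (r (i a)) - dl o' a‖ := norm_add_le _ _
      _ ≤ Lr * 1 + |C| := by
          rw [norm_dl_sub]
          refine add_le_add ?_ ((hC a).trans (le_abs_self C))
          refine (R.le_opNorm _).trans (mul_le_mul hRn ?_ (norm_nonneg _) hLr0)
          exact (hTA _ ⟨i a, ⟨a, ha, rfl⟩, rfl⟩).le
      _ ≤ _ := by
          have : 0 ≤ Lr * lam * Li := by positivity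
          linarith

/-- A criterion: coarse Lipschitz self-maps with finite image on a large ball, which move the
points of a given finite set by a bounded amount. -/
theorem hasBAP_of_locallyFinite {M : Type u} [MetricSpace M] {o : M} (hM : UniformlyDiscrete M)
    {C : ℝ} (h : ∀ A : Set M, A.Finite → ∀ ρ : ℝ, ∃ τ : M → M,
      (∀ x ∈ Metric.closedBall o ρ, ∀ y ∈ Metric.closedBall o ρ,
        dist (τ x) (τ y) ≤ C * dist x y + C) ∧
      (∀ a ∈ A, a ∈ Metric.closedBall o ρ → dist (τ a) a ≤ C) ∧
      (τ '' Metric.closedBall o ρ).Finite) : HasBAP (LipFree M o) := by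
  classical
  obtain ⟨θ, hθ, hsep⟩ := id hM
  have hC0 : 0 ≤ C := by
    obtain ⟨τ, -, hτ, -⟩ := h {o} (Set.finite_singleton o) 0
    exact dist_nonneg.trans (hτ o rfl (by simp))
  set L : ℝ := C + C / θ with hL
  have hL0 : 0 ≤ L := by positivity
  refine hasBAP_of_boundedError hM (K := 3 * L + C) fun A hA => ?_
  obtain ⟨r₁, hr₁⟩ := hA.isBounded.subset_closedBall o
  set r₀ : ℝ := max r₁ 1 with hr₀
  have hr₀pos : 0 < r₀ := lt_of_lt_of_le one_pos (le_max_right _ _)
  have hAball : ∀ a ∈ A, dist a o ≤ r₀ := fun a ha => (hr₁ ha).trans (le_max_left _ _)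
  obtain ⟨τ, hτL, hτA, hτfin⟩ := h (insert o A) (hA.insert o) (2 * r₀)
  have hob : o ∈ Metric.closedBall o (2 * r₀) := by
    rw [Metric.mem_closedBall, dist_self]; positivity
  have hτL' : ∀ x ∈ Metric.closedBall o (2 * r₀), ∀ y ∈ Metric.closedBall o (2 * r₀),
      dist (τ x) (τ y) ≤ L * dist x y := fun x hx y hy =>
    lipschitz_of_coarse hθ hC0 (hsep x y) (fun h => by rw [h, dist_self]) (hτL x hx y hy)
  -- the cut-off
  set φ : M → ℝ := fun x => max 0 (min 1 (2 - dist x o / r₀)) with hφ
  have hφ0 : ∀ x, 0 ≤ φ x := fun x => le_max_left _ _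
  have hφ1 : ∀ x, φ x ≤ 1 := fun x => max_le zero_le_one (min_le_left _ _)
  have hφout : ∀ x, x ∉ Metric.closedBall o (2 * r₀) → φ x = 0 := by
    intro x hx
    rw [Metric.mem_closedBall, not_le] at hx
    have : 2 - dist x o / r₀ ≤ 0 := by
      rw [sub_nonpos, le_div_iff₀ hr₀pos]; exact hx.le
    simp only [hφ]
    exact max_eq_left ((min_le_right _ _).trans this)
  have hφin : ∀ x, dist x o ≤ r₀ → φ x = 1 := by
    intro x hx
    have : 1 ≤ 2 - dist x o / r₀ := by
      have : dist x o / r₀ ≤ 1 := by rw [div_le_one hr₀pos]; exact hx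
      linarith
    simp only [hφ, min_eq_left this]
    exact max_eq_right zero_le_one
  have hφL : ∀ x y, |φ x - φ y| ≤ dist x y / r₀ := by
    intro x y
    have h1 : |φ x - φ y| ≤ |(2 - dist x o / r₀) - (2 - dist y o / r₀)| := by
      simp only [hφ]
      refine (abs_max_sub_max_le_max _ _ _ _).trans ?_
      rw [sub_self, abs_zero, max_eq_right (abs_nonneg _)]
      refine (abs_min_sub_min_le_max _ _ _ _).trans ?_
      rw [sub_self, abs_zero, max_eq_right (abs_nonneg _)]
    refine h1.trans ?_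
    have h2 : (2 - dist x o / r₀) - (2 - dist y o / r₀) = (dist y o - dist x o) / r₀ := by ring
    rw [h2, abs_div, abs_of_pos hr₀pos]
    gcongr
    rw [dist_comm x y]
    exact abs_dist_sub_le y x o
  set S : M → LipFree M o := fun x => φ x • (dl o (τ x) - dl o (τ o)) + dl o (τ o) with hS
  have hmain : ∀ x y, dist y o ≤ dist x o → ‖S x - S y‖ ≤ (3 * L) * dist x y := by
    intro x y hyx
    have hdecomp : S x - S y = φ x • (dl o (τ x) - dl o (τ y)) +
        (φ x - φ y) • (dl o (τ y) - dl o (τ o)) := by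
      simp only [hS]
      module
    by_cases hy : y ∈ Metric.closedBall o (2 * r₀)
    · have h2 : ‖(φ x - φ y) • (dl o (τ y) - dl o (τ o))‖ ≤ 2 * L * dist x y := by
        rw [norm_smul, Real.norm_eq_abs, norm_dl_sub]
        calc |φ x - φ y| * dist (τ y) (τ o) ≤ dist x y / r₀ * (L * (2 * r₀)) := by
              refine mul_le_mul (hφL x y) ((hτL' y hy o hob).trans ?_) dist_nonneg
                (div_nonneg dist_nonneg hr₀pos.le)
              exact mul_le_mul_of_nonneg_left hy hL0
          _ = 2 * L * dist x y := by field_simp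
      have h1 : ‖φ x • (dl o (τ x) - dl o (τ y))‖ ≤ L * dist x y := by
        by_cases hx : x ∈ Metric.closedBall o (2 * r₀)
        · rw [norm_smul, Real.norm_eq_abs, abs_of_nonneg (hφ0 x), norm_dl_sub]
          calc φ x * dist (τ x) (τ y) ≤ 1 * (L * dist x y) :=
                mul_le_mul (hφ1 x) (hτL' x hx y hy) dist_nonneg zero_le_one
            _ = _ := one_mul _
        · rw [hφout x hx, zero_smul, norm_zero]
          positivity
      rw [hdecomp]
      calc _ ≤ _ := norm_add_le _ _
        _ ≤ L * dist x y + 2 * L * dist x y := add_le_add h1 h2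
        _ = _ := by ring
    · have hx : x ∉ Metric.closedBall o (2 * r₀) := fun hx => hy (hyx.trans hx)
      rw [hdecomp, hφout x hx, hφout y hy]
      simp only [zero_smul, sub_self, add_zero, norm_zero]
      positivity
  refine ⟨S, Submodule.span ℝ (dl o '' (τ '' Metric.closedBall o (2 * r₀))),
    FiniteDimensional.span_of_finite ℝ (hτfin.image _), fun x => ?_, fun x y => ?_,
    fun a ha => ?_⟩
  · have ho : dl o (τ o) ∈ Submodule.span ℝ (dl o '' (τ '' Metric.closedBall o (2 * r₀))) :=
      Submodule.subset_span ⟨τ o, ⟨o, hob, rfl⟩, rfl⟩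
    by_cases hx : x ∈ Metric.closedBall o (2 * r₀)
    · have hx' : dl o (τ x) ∈ Submodule.span ℝ (dl o '' (τ '' Metric.closedBall o (2 * r₀))) :=
        Submodule.subset_span ⟨τ x, ⟨x, hx, rfl⟩, rfl⟩
      exact Submodule.add_mem _ (Submodule.smul_mem _ _ (Submodule.sub_mem _ hx' ho)) ho
    · simp only [hS, hφout x hx, zero_smul, zero_add]
      exact ho
  · have h3 : (3 * L) * dist x y ≤ (3 * L + C) * dist x y :=
      mul_le_mul_of_nonneg_right (by linarith) dist_nonneg
    rcases le_total (dist y o) (dist x o) with hyx | hxy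
    · exact (hmain x y hyx).trans h3
    · rw [norm_sub_rev]
      refine (hmain y x hxy).trans ?_
      rw [dist_comm y x]
      exact h3
  · have h1 : S a = dl o (τ a) := by
      simp only [hS, hφin a (hAball a ha)]
      module
    rw [h1, norm_dl_sub]
    have h2 : a ∈ Metric.closedBall o (2 * r₀) := by
      rw [Metric.mem_closedBall]
      exact (hAball a ha).trans (by linarith)
    exact (hτA a (Set.mem_insert_of_mem o ha) h2).trans (by linarith)

end Vale.Agent.LF
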