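import Mathlib

/-!
# Lipschitz-free spaces and bounded approximation: definitions

* `Lip0 M o`: real Lipschitz functions on `M` vanishing at the base point `o`, normed by the
  Lipschitz constant;
* `LipFree M o`: the closed linear span of the evaluations in the dual of `Lip0 M o`;
* `HasBAP`: the bounded approximation property of a real normed space.
-/

namespace Vale.Agent.LF

universe u v w

/-- The linear space of real functions `f` on `M` that are Lipschitz and vanish at `o`. -/
def lip0Submodule (M : Type u) [MetricSpace M] (o : M) : Submodule ℝ (M → ℝ) where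
  carrier := {f | f o = 0 ∧ ∃ K : ℝ, ∀ x y, |f x - f y| ≤ K * dist x y}
  zero_mem' := ⟨rfl, 0, fun x y => by simp⟩
  add_mem' := by
    rintro f g ⟨hf0, K, hK⟩ ⟨hg0, L, hL⟩
    refine ⟨by simp [hf0, hg0], K + L, fun x y => ?_⟩
    have h : (f + g) x - (f + g) y = (f x - f y) + (g x - g y) := by
      simp only [Pi.add_apply]; ring
    rw [h, add_mul]
    exact (abs_add_le _ _).trans (add_le_add (hK x y) (hL x y))
  smul_mem' := by
    rintro c f ⟨hf0, K, hK⟩
    refine ⟨by simp [hf0], |c| * K, fun x y => ?_⟩
    have h : (c • f) x - (c • f) y = c * (f x - f y) := by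
      simp only [Pi.smul_apply, smul_eq_mul]; ring
    rw [h, abs_mul, mul_assoc]
    exact mul_le_mul_of_nonneg_left (hK x y) (abs_nonneg c)

/-- `Lip0 M o`: the space of real Lipschitz functions on `M` that vanish at `o`. -/
def Lip0 (M : Type u) [MetricSpace M] (o : M) : Type u := ↥(lip0Submodule M o)

variable {M : Type u} [MetricSpace M] {o : M}

/-- The underlying function of an element of `Lip0 M o`. -/
def Lip0.fn (f : Lip0 M o) : M → ℝ := f.1

theorem Lip0.ext {f g : Lip0 M o} (h : ∀ x, f.fn x = g.fn x) : f = g :=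
  Subtype.ext (funext h)

section Core

/-- Addition in `Lip0 M o` is pointwise. -/
abbrev Lip0.groupStr (M : Type u) [MetricSpace M] (o : M) : AddCommGroup (Lip0 M o) :=
  Submodule.addCommGroup (lip0Submodule M o)

attribute [local instance] Lip0.groupStr

/-- Scalar multiplication in `Lip0 M o` is pointwise. -/
abbrev Lip0.moduleStr (M : Type u) [MetricSpace M] (o : M) : Module ℝ (Lip0 M o) :=
  Submodule.module (lip0Submodule M o)

attribute [local instance] Lip0.moduleStr

/-- The norm of `Lip0 M o` is the Lipschitz constant. -/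
noncomputable abbrev Lip0.normStr (M : Type u) [MetricSpace M] (o : M) : Norm (Lip0 M o) :=
  ⟨fun f => sInf {K : ℝ | 0 ≤ K ∧ ∀ x y, |f.fn x - f.fn y| ≤ K * dist x y}⟩

attribute [local instance] Lip0.normStr

theorem Lip0.set_nonempty (f : Lip0 M o) :
    {K : ℝ | 0 ≤ K ∧ ∀ x y, |f.fn x - f.fn y| ≤ K * dist x y}.Nonempty := by
  obtain ⟨K, hK⟩ := f.2.2
  exact ⟨|K|, abs_nonneg K, fun x y => (hK x y).trans
    (mul_le_mul_of_nonneg_right (le_abs_self K) dist_nonneg)⟩

theorem Lip0.norm_le' (f : Lip0 M o) {K : ℝ} (hK : 0 ≤ K)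
    (h : ∀ x y, |f.fn x - f.fn y| ≤ K * dist x y) : ‖f‖ ≤ K :=
  csInf_le ⟨0, fun _ hx => hx.1⟩ ⟨hK, h⟩

theorem Lip0.norm_nonneg' (f : Lip0 M o) : 0 ≤ ‖f‖ :=
  Real.sInf_nonneg fun _ hx => hx.1

theorem Lip0.lipschitz_bound' (f : Lip0 M o) (x y : M) : |f.fn x - f.fn y| ≤ ‖f‖ * dist x y := by
  rcases eq_or_lt_of_le (dist_nonneg (x := x) (y := y)) with h | h
  · obtain ⟨K, -, hK⟩ := f.set_nonempty
    have := hK x y
    rw [← h] at this ⊢
    simpa using this
  · rw [← div_le_iff₀ h]
    exact le_csInf f.set_nonempty fun K hK => (div_le_iff₀ h).2 (hK.2 x y)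

theorem Lip0.core : NormedSpace.Core ℝ (Lip0 M o) where
  norm_nonneg := Lip0.norm_nonneg'
  norm_smul := by
    intro c f
    have key : ∀ (c : ℝ) (f : Lip0 M o), ‖c • f‖ ≤ ‖c‖ * ‖f‖ := by
      intro c f
      refine Lip0.norm_le' _ (mul_nonneg (norm_nonneg c) f.norm_nonneg') fun x y => ?_
      have h : (c • f).fn x - (c • f).fn y = c * (f.fn x - f.fn y) := by
        show c * f.fn x - c * f.fn y = _; ring
      rw [h, abs_mul, mul_assoc]
      exact mul_le_mul_of_nonneg_left (f.lipschitz_bound' x y) (abs_nonneg c)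
    refine le_antisymm (key c f) ?_
    by_cases hc : c = 0
    · subst hc; simp [Lip0.norm_nonneg']
    · have h := key c⁻¹ (c • f)
      rw [smul_smul, inv_mul_cancel₀ hc, one_smul, norm_inv] at h
      have hc' : 0 < ‖c‖ := norm_pos_iff.2 hc
      rwa [inv_mul_eq_div, le_div_iff₀ hc', mul_comm] at h
  norm_triangle := by
    intro f g
    refine Lip0.norm_le' _ (add_nonneg f.norm_nonneg' g.norm_nonneg') fun x y => ?_
    have h : (f + g).fn x - (f + g).fn y = (f.fn x - f.fn y) + (g.fn x - g.fn y) := by
      show (f.fn x + g.fn x) - (f.fn y + g.fn y) = _; ring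
    rw [h, add_mul]
    exact (abs_add_le _ _).trans (add_le_add (f.lipschitz_bound' x y) (g.lipschitz_bound' x y))
  norm_eq_zero_iff := by
    intro f
    constructor
    · intro h
      refine Lip0.ext fun x => ?_
      have := f.lipschitz_bound' x o
      have h0 : f.fn o = 0 := f.2.1
      rw [h, zero_mul, h0, sub_zero] at this
      exact abs_nonpos_iff.1 this
    · rintro rfl
      exact le_antisymm (Lip0.norm_le' _ le_rfl fun x y => by
        show |(0 : ℝ) - 0| ≤ _; simp) (Lip0.norm_nonneg' _)

/-- `Lip0 M o` is a normed group for pointwise addition and the Lipschitz constant. -/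
noncomputable instance Lip0.instNormedAddCommGroup : NormedAddCommGroup (Lip0 M o) :=
  NormedAddCommGroup.ofCore Lip0.core

/-- `Lip0 M o` is a real normed space for pointwise operations and the Lipschitz constant. -/
noncomputable instance Lip0.instNormedSpace : NormedSpace ℝ (Lip0 M o) where
  __ := Lip0.moduleStr M o
  norm_smul_le c f := (Lip0.core.norm_smul c f).le

end Core

@[simp] theorem Lip0.fn_zero (x : M) : (0 : Lip0 M o).fn x = 0 := rfl
@[simp] theorem Lip0.fn_add (f g : Lip0 M o) (x : M) : (f + g).fn x = f.fn x + g.fn x := rfl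
@[simp] theorem Lip0.fn_smul (c : ℝ) (f : Lip0 M o) (x : M) : (c • f).fn x = c * f.fn x := rfl
@[simp] theorem Lip0.fn_base (f : Lip0 M o) : f.fn o = 0 := f.2.1

theorem Lip0.norm_def (f : Lip0 M o) :
    ‖f‖ = sInf {K : ℝ | 0 ≤ K ∧ ∀ x y, |f.fn x - f.fn y| ≤ K * dist x y} := rfl

theorem Lip0.norm_le (f : Lip0 M o) {K : ℝ} (hK : 0 ≤ K)
    (h : ∀ x y, |f.fn x - f.fn y| ≤ K * dist x y) : ‖f‖ ≤ K := f.norm_le' hK h

theorem Lip0.lipschitz_bound (f : Lip0 M o) (x y : M) : |f.fn x - f.fn y| ≤ ‖f‖ * dist x y :=
  f.lipschitz_bound' x y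

/-- The evaluation `f ↦ f x`, an element of the dual of `Lip0 M o`. -/
noncomputable def delta (o : M) (x : M) : StrongDual ℝ (Lip0 M o) :=
  LinearMap.mkContinuous
    { toFun := fun f => f.fn x
      map_add' := fun f g => Lip0.fn_add f g x
      map_smul' := fun c f => Lip0.fn_smul c f x } (dist x o) (fun f => by
      have := f.lipschitz_bound x o
      rw [Lip0.fn_base, sub_zero] at this
      simpa [mul_comm] using this)

@[simp] theorem delta_apply (x : M) (f : Lip0 M o) : delta o x f = f.fn x := rfl

/-- The closed linear span of the evaluations in the dual of `Lip0 M o`. -/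
noncomputable def lipFreeSubmodule (M : Type u) [MetricSpace M] (o : M) :
    Submodule ℝ (StrongDual ℝ (Lip0 M o)) :=
  (Submodule.span ℝ (Set.range (delta o))).topologicalClosure

/-- The Lipschitz-free space of the pointed metric space `(M, o)`: the closed linear span of the
evaluations in the dual of `Lip0 M o`, with the norm of that dual. -/
def LipFree (M : Type u) [MetricSpace M] (o : M) : Type u := ↥(lipFreeSubmodule M o)

noncomputable instance : NormedAddCommGroup (LipFree M o) :=
  Submodule.normedAddCommGroup (lipFreeSubmodule M o)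

noncomputable instance : NormedSpace ℝ (LipFree M o) :=
  Submodule.normedSpace (lipFreeSubmodule M o)

/-- A real normed space has the `lam`-bounded approximation property if on each compact set the
identity is a uniform limit of finite-rank operators of norm at most `lam`. -/
def HasBAPWith (lam : ℝ) (X : Type u) [NormedAddCommGroup X] [NormedSpace ℝ X] : Prop :=
  ∀ C : Set X, IsCompact C → ∀ ε : ℝ, 0 < ε →
    ∃ T : X →L[ℝ] X, FiniteDimensional ℝ (LinearMap.range (T : X →ₗ[ℝ] X)) ∧ ‖T‖ ≤ lam ∧
      ∀ x ∈ C, ‖T x - x‖ < ε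

/-- The bounded approximation property: `lam`-BAP for some finite `lam ≥ 1`. -/
def HasBAP (X : Type u) [NormedAddCommGroup X] [NormedSpace ℝ X] : Prop :=
  ∃ lam : ℝ, 1 ≤ lam ∧ HasBAPWith lam X

/-- A metric space is uniformly discrete if its nonzero distances are bounded below by some
positive number. -/
def UniformlyDiscrete (M : Type u) [MetricSpace M] : Prop :=
  ∃ θ : ℝ, 0 < θ ∧ ∀ x y : M, x ≠ y → θ ≤ dist x y

/-- `f : M → N` is coarse Lipschitz. -/
def CoarseLipschitz {M : Type u} {N : Type v} [MetricSpace M] [MetricSpace N] (f : M → N) : Prop :=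
  ∃ C : ℝ, ∀ x y, dist (f x) (f y) ≤ C * dist x y + C

/-- `M` is a coarse Lipschitz retract of `Z`: there are coarse Lipschitz maps `i : M → Z` and
`r : Z → M` such that `r ∘ i` is at bounded distance from the identity of `M`. -/
def CoarseRetract (M : Type u) (Z : Type v) [MetricSpace M] [MetricSpace Z] : Prop :=
  ∃ (i : M → Z) (r : Z → M), CoarseLipschitz i ∧ CoarseLipschitz r ∧
    ∃ C : ℝ, ∀ x, dist (r (i x)) x ≤ C

/-- A net in a metric space `Z`: a subset that is uniformly discrete and at bounded distance from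
each point of `Z`. -/
def IsNet {Z : Type u} [MetricSpace Z] (N : Set Z) : Prop :=
  UniformlyDiscrete N ∧ ∃ R : ℝ, ∀ z : Z, ∃ n ∈ N, dist z n ≤ R

/-- The four-point condition of Gromov hyperbolicity. -/
def GromovHyperbolic (M : Type u) [MetricSpace M] : Prop :=
  ∃ δ : ℝ, ∀ x y z w : M,
    dist x y + dist z w ≤ max (dist x z + dist y w) (dist x w + dist y z) + δ

/-- Rough geodesicity: between any two points there are points at each intermediate distance,
up to a bounded error. -/
def RoughlyGeodesic (M : Type u) [MetricSpace M] : Prop :=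
  ∃ c : ℝ, ∀ (x y : M) (t : ℝ), 0 ≤ t → t ≤ dist x y →
    ∃ z : M, dist x z ≤ t + c ∧ dist z y ≤ dist x y - t + c

/-- The vertex set of a connected graph, as a metric space for the shortest-path distance. -/
@[ext] structure GraphSpace {V : Type u} (G : SimpleGraph V) (hG : G.Connected) : Type u where
  /-- The underlying vertex. -/
  vertex : V

noncomputable instance {V : Type u} (G : SimpleGraph V) (hG : G.Connected) :
    MetricSpace (GraphSpace G hG) where
  dist x y := (G.dist x.vertex y.vertex : ℝ)
  dist_self x := by simp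
  dist_comm x y := by rw [SimpleGraph.dist_comm]
  dist_triangle x y z := by exact_mod_cast hG.dist_triangle
  eq_of_dist_eq_zero {x y} h := by
    exact GraphSpace.ext (hG.dist_eq_zero_iff.1 (by exact_mod_cast h))

end Vale.Agent.LF
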