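import Vale.Agent.LipFree.Coarse

/-!
# Free spaces of Gromov hyperbolic spaces
-/

namespace Vale.Agent.LF

universe u v w

/-- In a roughly geodesic hyperbolic space, each function at bounded distance from the distance
function to a point has an approximate centre. -/
theorem exists_centre {M : Type u} [MetricSpace M] {δ c : ℝ}
    (hδ : ∀ x y z w : M,
      dist x y + dist z w ≤ max (dist x z + dist y w) (dist x w + dist y z) + δ)
    (hc : ∀ (x y : M) (t : ℝ), 0 ≤ t → t ≤ dist x y →
      ∃ z : M, dist x z ≤ t + c ∧ dist z y ≤ dist x y - t + c)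
    (o : M) (h : M → ℝ) (hQ : ∃ B : ℝ, ∀ w, |h w - dist w o| ≤ B) :
    ∃ (s : ℝ) (x y z : M), (∀ u v, dist u v ≤ (h u - s) + (h v - s)) ∧
      (h x - s) + (h y - s) ≤ dist x y + 1 ∧ dist x z ≤ h x - s + c ∧ dist y z ≤ h y - s + c ∧
      ∀ w, dist w z ≤ h w - s + (1 + c + δ) := by
  obtain ⟨B, hB⟩ := hQ
  have hne : Nonempty (M × M) := ⟨(o, o)⟩
  set F : M × M → ℝ := fun p => (h p.1 + h p.2 - dist p.1 p.2) / 2 with hF
  have hbdd : BddBelow (Set.range F) := by
    refine ⟨-B, ?_⟩
    rintro _ ⟨p, rfl⟩
    have h1 := (abs_le.1 (hB p.1)).1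
    have h2 := (abs_le.1 (hB p.2)).1
    have h3 := dist_triangle_right p.1 p.2 o
    simp only [hF]
    linarith
  set s : ℝ := ⨅ p, F p with hs
  have hiv : ∀ u v, dist u v ≤ (h u - s) + (h v - s) := by
    intro u v
    have := ciInf_le hbdd (u, v)
    simp only [hF] at this
    linarith
  obtain ⟨⟨x, y⟩, hxy⟩ : ∃ p, F p < s + 1 / 2 := exists_lt_of_ciInf_lt (by linarith)
  simp only [hF] at hxy
  have hx0 : 0 ≤ h x - s := by have := hiv x x; rw [dist_self] at this; linarith
  have hy0 : 0 ≤ h y - s := by have := hiv y y; rw [dist_self] at this; linarith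
  obtain ⟨z, hz1, hz2⟩ := hc x y (min (h x - s) (dist x y)) (le_min hx0 dist_nonneg)
    (min_le_right _ _)
  have hz1' : dist x z ≤ h x - s + c := hz1.trans (by gcongr; exact min_le_left _ _)
  have hz2' : dist y z ≤ h y - s + c := by
    rw [dist_comm]
    refine hz2.trans ?_
    rcases min_choice (h x - s) (dist x y) with hm | hm
    · rw [hm]; have := hiv x y; linarith
    · rw [hm]; linarith
  refine ⟨s, x, y, z, hiv, by linarith, hz1', hz2', fun w => ?_⟩
  have h4 := hδ w z x y
  have hwx := hiv w x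
  have hwy := hiv w y
  rw [dist_comm z y, dist_comm z x] at h4
  rcases max_choice (dist w x + dist y z) (dist w y + dist x z) with hm | hm
  · rw [hm] at h4; linarith
  · rw [hm] at h4; linarith

/-- The free space of a uniformly discrete, roughly geodesic, Gromov hyperbolic space has the
BAP. No local finiteness is assumed. -/
theorem hasBAP_of_hyperbolic {M : Type u} [MetricSpace M] {o : M} (hM : UniformlyDiscrete M)
    (hh : GromovHyperbolic M) (hg : RoughlyGeodesic M) : HasBAP (LipFree M o) := by
  classical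
  obtain ⟨δ', hδ'⟩ := hh
  obtain ⟨c', hc'⟩ := hg
  set δ : ℝ := |δ'| with hδdef
  set c : ℝ := |c'| with hcdef
  have hδ0 : 0 ≤ δ := abs_nonneg _
  have hc0 : 0 ≤ c := abs_nonneg _
  have hδ : ∀ x y z w : M,
      dist x y + dist z w ≤ max (dist x z + dist y w) (dist x w + dist y z) + δ :=
    fun x y z w => (hδ' x y z w).trans (by gcongr; exact le_abs_self _)
  have hc : ∀ (x y : M) (t : ℝ), 0 ≤ t → t ≤ dist x y →
      ∃ z : M, dist x z ≤ t + c ∧ dist z y ≤ dist x y - t + c := by
    intro x y t ht0 ht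
    obtain ⟨z, h1, h2⟩ := hc' x y t ht0 ht
    exact ⟨z, h1.trans (by gcongr; exact le_abs_self _), h2.trans (by gcongr; exact le_abs_self _)⟩
  have hMne : Nonempty M := ⟨o⟩
  have hcen := exists_centre hδ hc o
  choose! sf xf yf zf hiv hiii hxz hyz hall using hcen
  -- the centre depends on the function in a coarse Lipschitz way
  have hcomp : ∀ h h' : M → ℝ, (∃ B : ℝ, ∀ w, |h w - dist w o| ≤ B) →
      (∃ B : ℝ, ∀ w, |h' w - dist w o| ≤ B) → ∀ t : ℝ, (∀ w, |h w - h' w| ≤ t) →
      dist (zf h) (zf h') ≤ 2 * t + (3 + 2 * c + 2 * δ) := by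
    intro h h' hQ hQ' t ht
    have hs : sf h - t - 1 / 2 ≤ sf h' := by
      have h1 := hiii h' hQ'
      have h2 := hiv h hQ (xf h') (yf h')
      have h3 := (abs_le.1 (ht (xf h'))).2
      have h4 := (abs_le.1 (ht (yf h'))).2
      linarith
    have hk : ∀ w, h' w - sf h' ≤ h w - sf h + 2 * t + 1 / 2 := by
      intro w
      have := (abs_le.1 (ht w)).1
      linarith
    have h1 := (hall h' hQ' (xf h)).trans (add_le_add_left (hk (xf h)) _)
    have h2 := (hall h' hQ' (yf h)).trans (add_le_add_left (hk (yf h)) _)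
    have h3 := hδ (zf h) (zf h') (xf h) (yf h)
    have h4 := hxz h hQ
    have h5 := hyz h hQ
    have h6 := hiii h hQ
    rw [dist_comm (zf h) (xf h), dist_comm (zf h) (yf h), dist_comm (zf h') (xf h),
      dist_comm (zf h') (yf h)] at h3
    rcases max_choice (dist (xf h) (zf h) + dist (yf h) (zf h'))
      (dist (yf h) (zf h) + dist (xf h) (zf h')) with hm | hm
    · rw [hm] at h3; linarith
    · rw [hm] at h3; linarith
  refine hasBAP_of_locallyFinite hM (C := 6 + 2 * c + 2 * δ) fun A hA ρ => ?_
  -- a finite-valued map `π` recording the position relative to the points of `A`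
  have : Finite A := hA
  set code : M → (A → ℤ) := fun w a => ⌊dist (a : M) w - dist o w⌋ with hcode
  have habs : ∀ x w : M, |dist x w - dist o w| ≤ dist x o := fun x w => abs_dist_sub_le x o w
  have hcodefin : (Set.range code).Finite := by
    refine (Set.Finite.pi (t := fun a : A => Set.Icc ⌊-dist (a : M) o⌋ ⌊dist (a : M) o⌋)
      (fun a => Set.finite_Icc _ _)).subset ?_
    rintro _ ⟨w, rfl⟩ a -
    have := abs_le.1 (habs a w)
    exact ⟨Int.floor_mono this.1, Int.floor_mono this.2⟩
  set π : M → M := fun w => Function.invFun code (code w) with hπ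
  have hπcode : ∀ w, code (π w) = code w := fun w => Function.invFun_eq ⟨w, rfl⟩
  have hπfin : (Set.range π).Finite := by
    refine (hcodefin.image (Function.invFun code)).subset ?_
    rintro _ ⟨w, rfl⟩
    exact ⟨code w, ⟨w, rfl⟩, rfl⟩
  have hπclose : ∀ a ∈ A, ∀ w,
      |(dist a (π w) - dist o (π w)) - (dist a w - dist o w)| < 1 := by
    intro a ha w
    have := congrFun (hπcode w) ⟨a, ha⟩
    exact Int.abs_sub_lt_one_of_floor_eq_floor this
  have hPfin : Finite (Set.range π) := hπfin
  -- the functions attached to the points of `M`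
  let e : (Set.range π → ℤ) → (M → ℝ) := fun n w => dist w o + (n ⟨π w, ⟨w, rfl⟩⟩ : ℝ)
  let nn : M → (Set.range π → ℤ) := fun x p => ⌊dist x (p : M) - dist o p⌋
  have hfl : ∀ x w : M, |(e (nn x) w - dist w o) - (dist x (π w) - dist o (π w))| ≤ 1 := by
    intro x w
    show |(dist w o + (⌊dist x (π w) - dist o (π w)⌋ : ℝ) - dist w o) -
      (dist x (π w) - dist o (π w))| ≤ 1
    rw [abs_le]
    have h1 := Int.floor_le (dist x (π w) - dist o (π w))
    have h2 := Int.lt_floor_add_one (dist x (π w) - dist o (π w))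
    constructor <;> linarith
  have hQ : ∀ x, ∃ B : ℝ, ∀ w, |e (nn x) w - dist w o| ≤ B := by
    intro x
    refine ⟨1 + dist x o, fun w => ?_⟩
    have h1 := abs_le.1 (hfl x w)
    have h2 := abs_le.1 (habs x (π w))
    rw [abs_le]
    constructor <;> linarith [h1.1, h1.2, h2.1, h2.2]
  refine ⟨fun x => zf (e (nn x)), fun x _ y _ => ?_, fun a ha _ => ?_, ?_⟩
  · have ht : ∀ w, |e (nn x) w - e (nn y) w| ≤ dist x y + 1 := by
      intro w
      have h0 := abs_dist_sub_le x y (π w)
      have e1 : e (nn x) w - e (nn y) w =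
          ((⌊dist x (π w) - dist o (π w)⌋ : ℤ) : ℝ) - (⌊dist y (π w) - dist o (π w)⌋ : ℤ) := by
        show (dist w o + (⌊dist x (π w) - dist o (π w)⌋ : ℝ)) -
          (dist w o + (⌊dist y (π w) - dist o (π w)⌋ : ℝ)) = _
        ring
      rw [e1]
      have a1 := Int.floor_le (dist x (π w) - dist o (π w))
      have a2 := Int.lt_floor_add_one (dist x (π w) - dist o (π w))
      have b1 := Int.floor_le (dist y (π w) - dist o (π w))
      have b2 := Int.lt_floor_add_one (dist y (π w) - dist o (π w))
      have := abs_le.1 h0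
      rw [abs_le]
      constructor <;> linarith [this.1, this.2]
    have := hcomp _ _ (hQ x) (hQ y) _ ht
    refine this.trans ?_
    have hd := dist_nonneg (x := x) (y := y)
    nlinarith
  · -- points of `A` are moved a bounded amount
    set h := e (nn a) with hh
    have hclose : ∀ w, |h w - dist a w| ≤ 2 := by
      intro w
      have h1 := abs_le.1 (hfl a w)
      have h2 := abs_lt.1 (hπclose a ha w)
      have h3 : dist w o = dist o w := dist_comm _ _
      rw [abs_le]
      constructor <;> linarith [h1.1, h1.2, h2.1, h2.2]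
    have hs : -5 / 2 ≤ sf h := by
      have h1 := hiii h (hQ a)
      have h3 := (abs_le.1 (hclose (xf h))).1
      have h4 := (abs_le.1 (hclose (yf h))).1
      have h5 := dist_triangle_left (xf h) (yf h) a
      linarith
    have h1 := hall h (hQ a) a
    have h2 := (abs_le.1 (hclose a)).2
    rw [dist_self] at h2
    rw [dist_comm]
    have : dist a (zf h) ≤ 6 + c + δ := by linarith
    exact this.trans (by linarith)
  · refine ((Set.Finite.pi (t := fun _ : Set.range π => Set.Icc ⌊-ρ⌋ ⌊ρ⌋)
      (fun _ => Set.finite_Icc _ _)).image (fun n => zf (e n))).subset ?_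
    rintro _ ⟨x, hx, rfl⟩
    refine ⟨nn x, ?_, rfl⟩
    rintro p -
    have h1 := abs_le.1 (habs x p)
    have h2 : dist x o ≤ ρ := hx
    exact ⟨Int.floor_mono (by linarith [h1.1]), Int.floor_mono (by linarith [h1.2])⟩

end Vale.Agent.LF
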