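import Vale.Agent.LipFree.Banach
import Vale.Agent.LipFree.Hyperbolic

/-!
# Free spaces of graphs
-/

namespace Vale.Agent.LF

universe u v w

section

variable {V : Type u} (G : SimpleGraph V) (hG : G.Connected)

theorem graph_dist (x y : GraphSpace G hG) : dist x y = (G.dist x.vertex y.vertex : ℝ) := rfl

theorem uniformlyDiscrete_graph : UniformlyDiscrete (GraphSpace G hG) := by
  refine ⟨1, one_pos, fun x y hxy => ?_⟩
  rw [graph_dist]
  exact_mod_cast hG.pos_dist_of_ne fun h => hxy (GraphSpace.ext h)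

theorem roughlyGeodesic_graph : RoughlyGeodesic (GraphSpace G hG) := by
  refine ⟨1, fun x y t ht0 ht => ?_⟩
  obtain ⟨p, hp⟩ := hG.exists_walk_length_eq_dist x.vertex y.vertex
  rw [graph_dist] at ht
  refine ⟨⟨p.getVert ⌊t⌋₊⟩, ?_, ?_⟩
  · have h1 : G.dist x.vertex (p.getVert ⌊t⌋₊) ≤ ⌊t⌋₊ := by
      refine (SimpleGraph.dist_le (p.take ⌊t⌋₊)).trans ?_
      rw [SimpleGraph.Walk.take_length]
      exact min_le_left _ _
    have h2 : (G.dist x.vertex (p.getVert ⌊t⌋₊) : ℝ) ≤ ⌊t⌋₊ := by exact_mod_cast h1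
    rw [graph_dist]
    have h3 := Nat.floor_le ht0
    show (G.dist x.vertex (p.getVert ⌊t⌋₊) : ℝ) ≤ t + 1
    linarith
  · have h1 : G.dist (p.getVert ⌊t⌋₊) y.vertex ≤ G.dist x.vertex y.vertex - ⌊t⌋₊ := by
      refine (SimpleGraph.dist_le (p.drop ⌊t⌋₊)).trans ?_
      rw [SimpleGraph.Walk.drop_length, hp]
    have h4 : ⌊t⌋₊ ≤ G.dist x.vertex y.vertex := Nat.floor_le_of_le ht
    have h2 : (G.dist (p.getVert ⌊t⌋₊) y.vertex : ℝ) ≤ G.dist x.vertex y.vertex - ⌊t⌋₊ := by
      rw [← Nat.cast_sub h4]; exact_mod_cast h1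
    rw [graph_dist, graph_dist]
    have h3 := Nat.lt_floor_add_one t
    show (G.dist (p.getVert ⌊t⌋₊) y.vertex : ℝ) ≤ G.dist x.vertex y.vertex - t + 1
    linarith

theorem hasBAP_hyperbolic_graph (hh : GromovHyperbolic (GraphSpace G hG)) (o : GraphSpace G hG) :
    HasBAP (LipFree (GraphSpace G hG) o) :=
  hasBAP_of_hyperbolic (uniformlyDiscrete_graph G hG) hh (roughlyGeodesic_graph G hG)

end

/-- Nets in normed spaces are quasi-isometric to graphs. -/
theorem hasBAP_net_of_graph {X : Type u} [NormedAddCommGroup X] [NormedSpace ℝ X]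
    {N : Set X} (hN : IsNet N) (ν : N)
    (h : ∀ (V : Type u) (G : SimpleGraph V) (hG : G.Connected) (o : GraphSpace G hG),
      HasBAP (LipFree (GraphSpace G hG) o)) : HasBAP (LipFree N ν) := by
  classical
  obtain ⟨hNd, R, hR⟩ := id hN
  have hR0 : 0 ≤ R := by
    obtain ⟨n, -, hn⟩ := hR 0
    exact dist_nonneg.trans hn
  choose p hp hpd using hR
  set D : ℝ := 2 * R + 1 with hD
  have hD0 : 0 < D := by positivity
  let G : SimpleGraph N :=
    { Adj := fun x y => x ≠ y ∧ dist (x : X) y ≤ D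
      symm := ⟨fun x y h => ⟨h.1.symm, by rw [dist_comm]; exact h.2⟩⟩
      loopless := ⟨fun x h => h.1 rfl⟩ }
  have hstep : ∀ x y : N, dist (x : X) y ≤ D → ∃ q : G.Walk x y, q.length ≤ 1 := by
    intro x y hxy
    by_cases h : x = y
    · subst h; exact ⟨SimpleGraph.Walk.nil, by simp⟩
    · have hadj : G.Adj x y := ⟨h, hxy⟩
      exact ⟨hadj.toWalk, by simp⟩
  -- walks along segments of `X`, rounded to the net
  have hwalk : ∀ (n : ℕ) (x : N) (z : X), dist (x : X) z ≤ n →
      ∃ q : G.Walk x ⟨p z, hp z⟩, q.length ≤ n + 1 := by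
    intro n
    induction n with
    | zero =>
      intro x z hxz
      have hxz' : (x : X) = z := dist_le_zero.1 (by simpa using hxz)
      refine hstep x ⟨p z, hp z⟩ ?_
      show dist (x : X) (p z) ≤ D
      rw [hxz']
      exact (hpd z).trans (by linarith)
    | succ n ih =>
      intro x z hxz
      -- a point `z'` of the segment with `dist x z' ≤ n` and `dist z' z ≤ 1`
      obtain ⟨z', hz1, hz2⟩ : ∃ z' : X, dist (x : X) z' ≤ n ∧ dist z' z ≤ 1 := by
        set d := dist (x : X) z with hd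
        by_cases hdn : d ≤ n
        · exact ⟨z, hdn, by rw [dist_self]; exact zero_le_one⟩
        · push Not at hdn
          have hd0 : 0 < d := lt_of_le_of_lt (Nat.cast_nonneg n) hdn
          refine ⟨AffineMap.lineMap (x : X) z ((n : ℝ) / d), ?_, ?_⟩
          · rw [dist_left_lineMap, ← hd, Real.norm_of_nonneg (by positivity)]
            rw [div_mul_cancel₀ _ hd0.ne']
          · rw [dist_lineMap_right, ← hd]
            have h1 : (n : ℝ) / d ≤ 1 := by rw [div_le_one hd0]; exact hdn.le
            rw [Real.norm_of_nonneg (by linarith)]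
            have h2 : (1 - (n : ℝ) / d) * d = d - n := by field_simp
            rw [h2]
            have : d ≤ (n : ℝ) + 1 := by exact_mod_cast hxz
            linarith
      obtain ⟨q, hq⟩ := ih x z' hz1
      obtain ⟨q', hq'⟩ := hstep ⟨p z', hp z'⟩ ⟨p z, hp z⟩ (by
        show dist (p z') (p z) ≤ D
        calc dist (p z') (p z) ≤ dist (p z') z' + dist z' z + dist z (p z) :=
              dist_triangle4 _ _ _ _
          _ ≤ R + 1 + R := by
              gcongr
              · rw [dist_comm]; exact hpd z'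
              · exact hpd z
          _ = D := by rw [hD]; ring)
      refine ⟨q.append q', ?_⟩
      rw [SimpleGraph.Walk.length_append]
      omega
  have hwalk' : ∀ (x y : N), ∃ q : G.Walk x y, (q.length : ℝ) ≤ dist (x : X) y + 3 := by
    intro x y
    obtain ⟨q, hq⟩ := hwalk ⌈dist (x : X) y⌉₊ x y (Nat.le_ceil _)
    obtain ⟨q', hq'⟩ := hstep ⟨p y, hp y⟩ y (by
      show dist (p (y : X)) (y : X) ≤ D
      rw [dist_comm]
      exact (hpd y).trans (by linarith))
    refine ⟨q.append q', ?_⟩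
    rw [SimpleGraph.Walk.length_append]
    have h1 : ((q.length + q'.length : ℕ) : ℝ) ≤ ((⌈dist (x : X) y⌉₊ + 1 + 1 : ℕ) : ℝ) := by
      exact_mod_cast add_le_add hq hq'
    refine h1.trans ?_
    have h2 := (Nat.ceil_lt_add_one (dist_nonneg (x := (x : X)) (y := y)))
    push_cast
    linarith
  have hGconn : G.Connected := by
    have : Nonempty N := ⟨ν⟩
    exact ⟨fun x y => (hwalk' x y).elim fun q _ => ⟨q⟩⟩
  have hle1 : ∀ x y : N, (G.dist x y : ℝ) ≤ dist (x : X) y + 3 := by
    intro x y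
    obtain ⟨q, hq⟩ := hwalk' x y
    exact le_trans (by exact_mod_cast SimpleGraph.dist_le q) hq
  have hle2 : ∀ x y : N, dist (x : X) y ≤ D * G.dist x y := by
    intro x y
    obtain ⟨q, hq⟩ := hGconn.exists_walk_length_eq_dist x y
    rw [← hq]
    clear hq
    induction q with
    | nil => simp
    | cons hadj q ih =>
      rename_i a b c'
      calc dist (a : X) c' ≤ dist (a : X) b + dist (b : X) c' := dist_triangle _ _ _
        _ ≤ D + D * q.length := add_le_add hadj.2 ih
        _ = D * ((q.length + 1 : ℕ) : ℝ) := by push_cast; ring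
        _ = _ := by rw [SimpleGraph.Walk.length_cons]
  have hcr : CoarseRetract N (GraphSpace G hGconn) := by
    refine ⟨fun x => ⟨x⟩, fun x => x.vertex, ⟨3, fun x y => ?_⟩, ⟨D, fun x y => ?_⟩, 0,
      fun x => ?_⟩
    · rw [graph_dist]
      have h1 := hle1 x y
      have h2 : (0 : ℝ) ≤ dist (x : X) y := dist_nonneg
      show (G.dist x y : ℝ) ≤ 3 * dist (x : X) y + 3
      linarith
    · rw [graph_dist]
      have h1 := hle2 x.vertex y.vertex
      show dist (x.vertex : X) y.vertex ≤ D * _ + D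
      linarith
    · rw [dist_self]
  exact hasBAP_of_coarseRetract (uniformlyDiscrete_graph G hGconn) hNd hcr (h N G hGconn ⟨ν⟩)

end Vale.Agent.LF
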